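import Vale.Agent.P216E.Inst
import Vale.Agent.P216BF.Vol
import Vale.Agent.P216MP.Vs
import Vale.Agent.P216LS.PoU
import Vale.Agent.P216G.Ode
import Mathlib.Analysis.Calculus.ParametricIntegral

/-! # P216EF: the space-time calculus, the heat equation and the conjugate heat equation -/

open scoped Manifold ContDiff Topology ENNReal
open Set Filter MeasureTheory

set_option maxSynthPendingDepth 3
set_option linter.unusedSectionVars false

noncomputable section

namespace Vale.Agent.P216EF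

open Vale.Agent.P216R Vale.Agent.P216ST Vale.Agent.P216E
open Vale.Agent.P210.R2.H53 (gamG lapG)
open Vale.Agent.P216BF (PD)

variable {E : Type} [NormedAddCommGroup E] [NormedSpace ℝ E] [FiniteDimensional ℝ E]
  {M : Type} [TopologicalSpace M] [ChartedSpace E M] [IsManifold 𝓘(ℝ, E) ∞ M]
  {g : ℝ → Ten E M} {I : Set ℝ} {U : Set M} {u v : ℝ → M → ℝ} {s t a b : ℝ} {y : M}

/-! ### smooth functions on space-time -/

lemma smF_ps (hU : IsOpen U) (hu : SmF E u I U) (hs : s ∈ I) {a : M} {z : E}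
    (hz : z ∈ dom E a U) : PS (fun s => rd E (u s) a) I s z :=
  contDiffWithinAt_univ_of (hu a) (isOpen_dom a hU) hs hz

lemma rd_lap {g : Ten E M} (hg : Met g U) {φ : M → ℝ} {a : M} {z : E} (hz : z ∈ dom E a U)
    (hφ : ContDiffAt ℝ 2 (rd E φ a) z) : rd E (lap g φ) a z = lapG (co g a) (rd E φ a) z := by
  have hx := (chartAt E a).map_target hz.1
  have := (li_chart hg hz.2 hx).lap (φ := rd E φ a)
    (by rwa [rd_model, pt_model, (chartAt E a).right_inv hz.1])
  rw [lap_congr EventuallyEq.rfl (P216LS.rd_comp_chart φ hx), (chartAt E a).right_inv hz.1,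
    lap_model] at this
  exact this

lemma rd_gam {g : Ten E M} (hg : Met g U) {φ ψ : M → ℝ} {a : M} {z : E} (hz : z ∈ dom E a U)
    (hφ : DifferentiableAt ℝ (rd E φ a) z) (hψ : DifferentiableAt ℝ (rd E ψ a) z) :
    rd E (gam g φ ψ) a z = gamG (co g a) (rd E φ a) (rd E ψ a) z := by
  have hx := (chartAt E a).map_target hz.1
  have := (li_chart hg hz.2 hx).gam (φ := rd E φ a) (ψ := rd E ψ a)
    (by rwa [rd_model, pt_model, (chartAt E a).right_inv hz.1])
    (by rwa [rd_model, pt_model, (chartAt E a).right_inv hz.1])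
  rw [gam_congr rfl (P216LS.rd_comp_chart φ hx) (P216LS.rd_comp_chart ψ hx),
    (chartAt E a).right_inv hz.1, gam_model] at this
  exact this

lemma smF_lap (h : Fam g I U) (hu : SmF E u I U) : SmF E (fun s => lap (g s) (u s)) I U :=
  fun a => (contDiffOn_of_ps (f := fun s => lapG (co (g s) a) (rd E (u s) a)) fun _ hs _ hz =>
    (h.ps hs hz).lapG hs (h.co_pos hs hz) (smF_ps h.isOpen hu hs hz)).congr fun _ hb =>
    rd_lap (h.met hb.1) hb.2 (((smF_ps h.isOpen hu hb.1 hb.2).contDiffAt hb.1).of_le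
      (WithTop.coe_le_coe.2 le_top))

lemma smF_gam (h : Fam g I U) (hu : SmF E u I U) (hv : SmF E v I U) :
    SmF E (fun s => gam (g s) (u s) (v s)) I U :=
  fun a => (contDiffOn_of_ps (f := fun s => gamG (co (g s) a) (rd E (u s) a) (rd E (v s) a))
    fun _ hs _ hz => (h.ps hs hz).gamG hs (h.co_pos hs hz) (smF_ps h.isOpen hu hs hz)
      (smF_ps h.isOpen hv hs hz)).congr fun _ hb => rd_gam (h.met hb.1) hb.2
    (((smF_ps h.isOpen hu hb.1 hb.2).contDiffAt hb.1).differentiableAt (by simp))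
    (((smF_ps h.isOpen hv hb.1 hb.2).contDiffAt hb.1).differentiableAt (by simp))

lemma smF_dt (hI : UniqueDiffOn ℝ I) (hU : IsOpen U) (hu : SmF E u I U) :
    SmF E (fun s y => derivWithin (fun r => u r y) I s) I U := fun a b hb =>
  (((hu a b hb).fderivWithin_right (m := ∞) (hI.prod (isOpen_dom a hU).uniqueDiffOn) (by simp)
    hb).clm_apply (contDiffWithinAt_const (c := ((1 : ℝ), (0 : E))))).congr_of_mem
    (fun c hc => (HasFDerivWithinAt.comp_hasDerivWithinAt c.1 (f := fun s => (s, c.2))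
      ((hu a c hc).differentiableWithinAt (by simp)).hasFDerivWithinAt
      ((hasDerivAt_id c.1).prodMk (hasDerivAt_const c.1 c.2)).hasDerivWithinAt
      fun _ hs => mk_mem_prod hs hc.2).derivWithin (hI _ hc.1)) hb

lemma smF_const {φ : M → ℝ} (hφ : Sm0 E φ U) (I : Set ℝ) : SmF E (fun _ => φ) I U :=
  fun a => (hφ a).comp contDiffOn_snd fun _ hb => hb.2

lemma smF_slice (hu : SmF E u I U) (hs : s ∈ I) : Sm0 E (u s) U :=
  fun a => (hu a).comp (f := fun z => (s, z)) (by fun_prop) fun _ hz => ⟨hs, hz⟩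

lemma smF_diff (hU : IsOpen U) (hu : SmF E u I U) (hs : s ∈ I) (hy : y ∈ U) :
    DifferentiableWithinAt ℝ (fun r => u r y) I s := by
  simpa only [rd_pt] using (smF_ps hU hu hs (pt_mem_dom hy)).time.differentiableWithinAt (by simp)

lemma smF_cont (hU : IsOpen U) (hu : SmF E u I U) :
    ContinuousOn (fun p : ℝ × M => u p.1 p.2) (I ×ˢ U) := fun _ hp =>
  (PS.continuousWithinAt_rd (smF_ps hU hu hp.1 (pt_mem_dom hp.2))).mono
    (prod_mono Subset.rfl (subset_univ _))

lemma contDiffAt_den {B : Bil E} (h : PD B) : ContDiffAt ℝ ∞ den B := by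
  refine ContDiffAt.sqrt (ContDiff.contDiffAt ?_) (Real.sqrt_pos.1 (den_pos h)).ne'
  simp only [Matrix.det_apply', Matrix.of_apply]
  fun_prop

/-- the ratio of the volume elements -/
lemma smF_rho (h : Fam g I U) (ha : a ∈ I) :
    SmF E (fun t x => den (g t x) / den (g a x)) I U := fun c => by
  have pd : ∀ t ∈ I, ∀ z ∈ dom E c U, PD (co (g t) c z) := fun t ht z hz =>
    Met.pd ((h.co c).met ht) hz
  refine ContDiffOn.congr (f := fun p : ℝ × E => den (co (g p.1) c p.2) / den (co (g a) c p.2))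
    (ContDiffOn.div (fun p hp => ContDiffAt.comp_contDiffWithinAt (g := den) p
      (contDiffAt_den (pd _ hp.1 _ hp.2)) (h.smooth c p hp))
      (fun p hp => ContDiffAt.comp_contDiffWithinAt (g := den) p (contDiffAt_den (pd _ ha _ hp.2))
        (((h.met ha).fam I).smooth c p hp)) fun p hp => (den_pos (pd _ ha _ hp.2)).ne')
    fun p hp => ?_
  have := (den_pos (pd _ ha _ hp.2)).ne'
  rw [den_co] at this
  rw [den_co, den_co, mul_div_mul_left _ _ (left_ne_zero_of_mul this)]
  rfl

variable [MeasurableSpace E] [BorelSpace E] [MeasurableSpace M] [BorelSpace M]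

/-- the volume of one metric as a density with respect to the volume of another one -/
theorem vol_wd {g h : Ten E M} (hh : Met h U) (hU : IsLindelof U) : (vol g).restrict U =
    ((vol h).restrict U).withDensity fun x => ENNReal.ofReal (den (g x) / den (h x)) := by
  have hm := hh.isOpen.measurableSet
  have key : ∀ x ∈ U, ∃ W, IsOpen W ∧ x ∈ W ∧ ∀ S ⊆ W, MeasurableSet S → vol g S =
      (vol h).withDensity (fun x => ENNReal.ofReal (den (g x) / den (h x))) S := fun x hx => by
    refine ⟨_, (chartAt E x).open_source.inter hh.isOpen, ⟨mem_chart_source E x, hx⟩,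
      fun S h1 h2 => ?_⟩
    have h3 : S ⊆ (chartAt E x).source := h1.trans inter_subset_left
    have h4 := meas_chart_image h2 h3
    have h5 : chartAt E x '' S ⊆ dom E x U := by
      rintro _ ⟨y, hy, rfl⟩
      exact mem_dom (h3 hy) (h1 hy).2
    rw [vol_chart g h2 h3, withDensity_apply _ h2]
    conv_rhs => rw [← ((chartAt E x).leftInvOn.mono h3).image_image]
    rw [lintegral_image h (ld_symm x) (chartAt E x).symm.injOn
      (HereditarilyLindelofSpace.isLindelof _) (h5.trans inter_subset_left) h4 subset_rfl,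
      vol_model, setLIntegral_withDensity_eq_setLIntegral_mul_non_measurable₀ _ _ _ h4 (by simp)]
    · refine setLIntegral_congr_fun h4 fun z hz => ?_
      rw [Pi.mul_apply, ← ENNReal.ofReal_mul (den_nonneg _), dens_eq, den_co, ← co, den_co,
        mul_assoc, mul_div_cancel₀ _ (den_pos (hh.pd (h5 hz).2)).ne']
    · exact (ENNReal.continuous_ofReal.comp_continuousOn
        ((hh.continuousOn_dens x).mono h5)).aemeasurable h4
  rw [← restrict_withDensity hm]
  ext S hS
  rw [Measure.restrict_apply hS, Measure.restrict_apply hS]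
  exact le_antisymm
    (meas_le_of_loc hU (fun x hx => (key x hx).imp fun W k => ⟨k.1, k.2.1, fun S a b =>
      (k.2.2 S a b).le⟩) (hS.inter hm) inter_subset_right)
    (meas_le_of_loc hU (fun x hx => (key x hx).imp fun W k => ⟨k.1, k.2.1, fun S a b =>
      (k.2.2 S a b).ge⟩) (hS.inter hm) inter_subset_right)

theorem integral_rho (h : Fam g I U) (hU : IsLindelof U) (ha : a ∈ I) (ht : t ∈ I) (φ : M → ℝ) :
    ∫ x in U, φ x ∂vol (g t) = ∫ x in U, den (g t x) / den (g a x) * φ x ∂vol (g a) := by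
  rw [vol_wd (h.met ha) hU, integral_withDensity_eq_integral_toReal_smul₀
    ((P216LS.sm0_cont h.isOpen (smF_slice (smF_rho h ha) ht)).aemeasurable
      h.isOpen.measurableSet).ennreal_ofReal (Eventually.of_forall fun z => ENNReal.ofReal_lt_top)]
  simp only [ENNReal.toReal_ofReal (div_nonneg (den_nonneg _) (den_nonneg _)), smul_eq_mul]

/-- differentiation under the integral sign -/
theorem int_fixed {μ : Measure M} [IsFiniteMeasure (μ.restrict U)] (hU : IsOpen U)
    (hc : IsCompact U) (hab : a < b) (hu : SmF E u (Icc a b) U) :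
    ContinuousOn (fun t => ∫ x in U, u t x ∂μ) (Icc a b) ∧ ∀ t ∈ Ioo a b,
      HasDerivAt (fun t => ∫ x in U, u t x ∂μ) (∫ x in U, deriv (fun s => u s x) t ∂μ) t := by
  have hm := hU.measurableSet
  have m : ∀ {v : ℝ → M → ℝ}, SmF E v (Icc a b) U → ∀ t ∈ Icc a b,
      AEStronglyMeasurable (v t) (μ.restrict U) := fun hv t ht =>
    ((P216LS.sm0_cont hU (smF_slice hv ht)).aemeasurable hm).aestronglyMeasurable
  have hd := smF_dt (uniqueDiffOn_Icc hab) hU hu
  obtain ⟨C, hC⟩ := (isCompact_Icc.prod hc).exists_bound_of_continuousOn (smF_cont hU hu)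
  obtain ⟨D, hD⟩ := (isCompact_Icc.prod hc).exists_bound_of_continuousOn (smF_cont hU hd)
  refine ⟨continuousOn_of_dominated (m hu) (fun t ht => (ae_restrict_mem hm).mono
    fun x hx => hC (t, x) ⟨ht, hx⟩) (integrable_const C) ((ae_restrict_mem hm).mono
      fun x hx t ht => (smF_diff hU hu ht hx).continuousWithinAt), fun t ht => ?_⟩
  have ht' := Ioo_subset_Icc_self ht
  simp only [← derivWithin_of_mem_nhds (Icc_mem_nhds ht.1 ht.2)]
  exact (hasDerivAt_integral_of_dominated_loc_of_deriv_le (isOpen_Ioo.mem_nhds ht)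
    (eventually_of_mem (Icc_mem_nhds ht.1 ht.2) (m hu)) (Integrable.of_bound (m hu t ht') C
      ((ae_restrict_mem hm).mono fun x hx => hC (t, x) ⟨ht', hx⟩)) (m hd t ht')
    ((ae_restrict_mem hm).mono fun x hx s hs => hD (s, x) ⟨Ioo_subset_Icc_self hs, hx⟩)
    (integrable_const D) ((ae_restrict_mem hm).mono fun x hx s hs =>
      (smF_diff hU hu (Ioo_subset_Icc_self hs) hx).hasDerivWithinAt.hasDerivAt
        (Icc_mem_nhds hs.1 hs.2))).2

theorem flo_ok (tok : TOK E) (hab : a < b) (hg : Fam g (Icc a b) U) (hc : IsCompact U) (hH : Hs U)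
    {P : ℝ → M → ℝ} (hP : SmF E P (Icc a b) U) (hd : ∀ t ∈ Ioo a b, ∀ x ∈ U,
      HasDerivAt (fun s => den (g s x)) (-P t x * den (g t x)) t) :
    Flo.Ok ⟨a, b, U, fun t => (vol (g t)).restrict U, {f | Sm0 E f U}, fun t => gam (g t),
      fun t => lap (g t), fun t => Sc (g t), {w | SmF E w (Icc a b) U}, P⟩ := by
  have ha : a ∈ Icc a b := left_mem_Icc.2 hab.le
  have := isFiniteMeasure_vol (hg.met ha) hc subset_rfl
  have df : ∀ {w : ℝ → M → ℝ}, SmF E w (Icc a b) U → ∀ t ∈ Ioo a b, ∀ x ∈ U,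
      DifferentiableAt ℝ (fun s => w s x) t := fun hw t ht x hx =>
    (smF_diff hg.isOpen hw (Ioo_subset_Icc_self ht) hx).differentiableAt (Icc_mem_nhds ht.1 ht.2)
  have key := fun (w : ℝ → M → ℝ) (hw : SmF E w (Icc a b) U) => int_fixed (μ := vol (g a))
    (u := fun t x => den (g t x) / den (g a x) * w t x) hg.isOpen hc hab
    fun c => (smF_rho hg ha c).mul (hw c)
  refine ⟨hab.le, fun t ht => tok M _ U (hg.met ht) hc hH, fun w hw t ht => smF_slice hw ht,
    fun f hf => smF_const hf _, fun _ => contDiffOn_fst, fun w hw z hz c => (hw c).add (hz c),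
    fun w hw G hG c p hp => (hG _ hp.1 _ hp.2.2).comp_contDiffWithinAt p (hw c p hp),
    fun w hw z hz => smF_gam hg hw hz, fun w hw => smF_lap hg hw, hg.smooth_Sc, hP,
    fun w hw => df hw, fun w hw t ht => ?_, fun w hw => (key w hw).1.congr
      fun t ht => integral_rho hg hc.isLindelof ha ht _, fun w hw t ht => ?_⟩
  · simpa only [derivWithin_of_mem_nhds (Icc_mem_nhds ht.1 ht.2), mem_ofPred_eq] using
      smF_slice (smF_dt (uniqueDiffOn_Icc hab) hg.isOpen hw) (Ioo_subset_Icc_self ht)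
  · refine (((key w hw).2 t ht).congr_of_eventuallyEq (eventually_of_mem (Icc_mem_nhds ht.1 ht.2)
      fun s hs => integral_rho hg hc.isLindelof ha hs _)).congr_deriv ?_
    refine Eq.trans ?_ (integral_rho hg hc.isLindelof ha (Ioo_subset_Icc_self ht) _).symm
    refine setIntegral_congr_fun hg.isOpen.measurableSet fun x hx => ?_
    refine (((hd t ht x hx).div_const _).mul (df hw t ht x hx).hasDerivAt).deriv.trans ?_
    ring

variable (E) in
theorem fok (tok : TOK E) : FOK E := fun _ _ _ _ _ _ _ _ _ _ hab hg hc hH =>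
  flo_ok tok hab hg.toFam hc hH hg.toFam.smooth_Sc fun _ ht _ hx =>
    (P216BF.rf_den hg (Ioo_subset_Icc_self ht) hx).hasDerivAt (Icc_mem_nhds ht.1 ht.2)

variable (E) in
theorem theat (heat : HEAT E) (tok : TOK E) : THEAT E := by
  intro M _ _ _ _ _ g U hg hc hH s hs
  have H := tok M g U hg hc hH
  have K := flo_ok tok hs (hg.fam _) hc hH (P := fun _ _ => 0) (fun _ => contDiffOn_const)
    fun t _ x _ => by simpa using hasDerivAt_const t (den (g x))
  refine ⟨_, K, fun w hw t ht x hx => ?_, fun q hq f hf => ?_⟩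
  · have ht' := Ioo_subset_Icc_self ht
    have a1 : HasDerivAt (fun r => P216LS.dF E (w r) x)
        (P216LS.dF E (fun z => deriv (fun r => w r z) t) x) t :=
      P216G.hasDerivAt_fderiv_snd (G := fun p : ℝ × E => rd E (w p.1) x p.2)
        (ContDiffWithinAt.contDiffAt (smF_ps hg.isOpen hw ht' (pt_mem_dom hx))
          (prod_mem_nhds (Icc_mem_nhds ht.1 ht.2) univ_mem))
        (((isOpen_dom x hg.isOpen).eventually_mem (pt_mem_dom hx)).mono
          fun z hz => (K.diff w hw t ht _ hz.2).hasDerivAt)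
    have a2 := H.Γ_comm _ (K.slice w hw t ht') _ (K.dS w hw t ht) x hx
    simp only [P216LS.gam_dF] at a2 ⊢
    refine (a1.clm_apply ((g x).inverse.hasFDerivAt.comp_hasDerivAt t a1)).congr_deriv ?_
    rw [a2]
    exact (two_mul _).symm
  · obtain ⟨u, h1, h2, h3⟩ := heat M U (fun _ => g) 0 s (fun _ _ => 0) (fun _ x => -q x)
      (fun _ _ => 0) f hc hH hs (hg.fam _) (fun _ => contDiffOn_const)
      (smF_const (fun c => (hq c).neg) _) (fun _ => contDiffOn_const) hf
    refine ⟨u, h1, fun x _ => congrFun h2 x, fun t ht x hx => ?_⟩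
    refine ((h3 t (Ioo_subset_Icc_self ht) x hx).hasDerivAt (Icc_mem_nhds ht.1 ht.2)).deriv.trans ?_
    rw [P216MP.gam_zero_left (Eventually.of_forall fun _ => le_rfl)]
    ring

variable (E) in
theorem fconj (cheat : CHEAT E) : FCONJ E := by
  intro M _ _ _ _ _ g a b U hab hg hc hH f hf hpos
  have hS : SmF E (fun t => Sc (g t)) (Icc a b) U := hg.toFam.smooth_Sc
  obtain ⟨u, h1, h2, h3⟩ := cheat M U g a b (fun _ _ => 0) (fun t x => -Sc (g t) x)
    (fun _ _ => 0) f hc hH hab hg.toFam (fun _ => contDiffOn_const) (fun c => (hS c).neg)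
    (fun _ => contDiffOn_const) hf
  have h4 : ∀ t ∈ Icc a b, ∀ x ∈ U, HasDerivWithinAt (fun s => u s x)
      (-lap (g t) (u t) x + Sc (g t) x * u t x) (Icc a b) t := fun t ht x hx =>
    (h3 t ht x hx).congr_deriv (by
      rw [P216MP.gam_zero_left (Eventually.of_forall fun _ => le_rfl)]
      ring)
  refine ⟨u, ⟨h1, fun t ht x hx => ?_, fun t ht x hx => ((h4 t (Ioo_subset_Icc_self ht) x
    hx).hasDerivAt (Icc_mem_nhds ht.1 ht.2)).deriv⟩, fun x _ => congrFun h2 x⟩
  obtain ⟨m, m0, hm⟩ := hc.exists_forall_le' (P216LS.sm0_cont hg.isOpen hf) hpos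
  obtain ⟨K, hK⟩ := (isCompact_Icc.prod hc).exists_bound_of_continuousOn (smF_cont hg.isOpen hS)
  have n : MapsTo (fun s : ℝ => -s) (Icc (-b) (-a)) (Icc a b) :=
    fun s hs => ⟨by linarith [hs.2], by linarith [hs.1]⟩
  have sa := fun s (hs : s ∈ Ioc (-b) (-a)) x (hx : x ∈ U) => P216MP.sa_of
    ((P216LS.sm0_iff hg.isOpen).1 (smF_slice h1 (n (Ioc_subset_Icc_self hs))) x hx)
  have := P216MP.wmp_smooth (g := fun s => g (-s)) (a := -b) (b := -a) (K := K)
    (u := fun s x => u (-s) x - m * Real.exp (-K * (s + b)))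
    (u' := fun s x => -(-lap (g (-s)) (u (-s)) x + Sc (g (-s)) x * u (-s) x) -
      m * (Real.exp (-K * (s + b)) * -K))
    (by simpa only [one_smul] using hg.toFam.resc one_pos contDiff_neg.contDiffOn n) hc
    (((smF_cont hg.isOpen h1).comp (f := fun q : ℝ × M => (-q.1, q.2)) (by fun_prop)
      fun q hq => ⟨n hq.1, hq.2⟩).sub (by fun_prop))
    (fun s hs x hx => (sa s hs x hx).sub contDiffAt_const)
    (fun s hs x hx => by
      have b1 := (h4 _ (n (Ioc_subset_Icc_self hs)) x hx).scomp s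
        (hasDerivAt_neg s).hasDerivWithinAt n
      have b2 := ((((hasDerivAt_id s).add_const b).const_mul (-K)).exp.const_mul m
        ).hasDerivWithinAt (s := Icc (-b) (-a))
      exact (b1.sub b2).congr_deriv (by simp))
    (fun x hx => by simpa [h2] using hm x hx)
    (fun s hs x hx b1 _ b2 => by
      rw [P216MP.lap_sub (sa s hs x hx) (P216MP.sa_const _), P216MP.lap_const, sub_zero] at b2
      have b3 := abs_le.1 (hK (-s, x) ⟨n (Ioc_subset_Icc_self hs), hx⟩)
      have b4 := mul_pos m0 (Real.exp_pos (-K * (s + b)))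
      nlinarith [mul_nonneg (sub_nonneg.2 b3.2) b4.le,
        mul_nonneg (sub_nonneg.2 b3.1) (neg_nonneg.2 b1.le)])
    (-t) ⟨neg_le_neg ht.2, neg_le_neg ht.1⟩ x hx
  rw [neg_neg] at this
  linarith [mul_pos m0 (Real.exp_pos (-K * (-t + b)))]

end Vale.Agent.P216EF
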